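import Mathlib

/-!
# P148, module M-ABS: Morera by exploration, the abstract part

A finite exploration is a binary tree of states.  A state `s` has a tip face `face s`; if it is not
terminal then its next vertex is given to one of the two sides, each with probability `1/2`.
-/

namespace Vale.Agent.P148.R2.H602

/-- A finite exploration: states with a tip face, and for non terminal states the two states
obtained by giving the next vertex to one of the two sides. -/
structure Expl (S F : Type*) where
  face : S → F
  ch : S → Option (S × S)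
  rank : S → ℕ
  rank_lt : ∀ s c, ch s = some c → rank c.1 < rank s ∧ rank c.2 < rank s

namespace Expl

variable {S F : Type*} (X : Expl S F)

section ex

variable {E : Type*} [AddCommGroup E] [Module ℝ E]

open Classical in
/-- The expected value of `g` at the first state (from `s` on) which satisfies `stop`; the
contribution of the explorations which end before is `0`. -/
noncomputable def ex (stop : S → Prop) (g : S → E) (s : S) : E :=
  if stop s then g s else
    match h : X.ch s with
    | none => 0
    | some c => (2⁻¹ : ℝ) • (ex stop g c.1 + ex stop g c.2)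
termination_by X.rank s
decreasing_by
  · exact (X.rank_lt s c h).1
  · exact (X.rank_lt s c h).2

variable {X} {stop : S → Prop} {g g' : S → E} {s : S}

theorem ex_stop (h : stop s) : X.ex stop g s = g s := by
  rw [ex, if_pos h]

theorem ex_leaf (h : ¬ stop s) (hs : X.ch s = none) : X.ex stop g s = 0 := by
  rw [ex, if_neg h]
  split
  · rfl
  · rename_i c hc
    rw [hs] at hc
    exact absurd hc (by simp)

theorem ex_node (h : ¬ stop s) {c : S × S} (hs : X.ch s = some c) :
    X.ex stop g s = (2⁻¹ : ℝ) • (X.ex stop g c.1 + X.ex stop g c.2) := by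
  rw [ex, if_neg h]
  split
  · rename_i hc
    rw [hs] at hc
    exact absurd hc (by simp)
  · rename_i c' hc
    rw [hs] at hc
    obtain rfl := Option.some.inj hc
    rfl

/-- Induction along the exploration. -/
theorem induct (X : Expl S F) {P : S → Prop}
    (h : ∀ s, (∀ s', X.rank s' < X.rank s → P s') → P s) (s : S) : P s := by
  have : ∀ n, ∀ s, X.rank s = n → P s := by
    intro n
    induction n using Nat.strong_induction_on with
    | _ n ih =>
      intro s hs
      exact h s fun s' hs' => ih _ (hs ▸ hs') s' rfl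
  exact this _ s rfl

theorem ex_congr (h : ∀ s', X.rank s' ≤ X.rank s → stop s' → g s' = g' s') :
    X.ex stop g s = X.ex stop g' s := by
  revert h
  induction s using X.induct with
  | h s ih =>
    intro h
    by_cases hst : stop s
    · rw [ex_stop hst, ex_stop hst, h s le_rfl hst]
    · rcases hc : X.ch s with _ | c
      · rw [ex_leaf hst hc, ex_leaf hst hc]
      · obtain ⟨h1, h2⟩ := X.rank_lt s c hc
        rw [ex_node hst hc, ex_node hst hc, ih c.1 h1 fun s' hs' => h s' (hs'.trans h1.le),
          ih c.2 h2 fun s' hs' => h s' (hs'.trans h2.le)]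

theorem ex_add : X.ex stop (fun s => g s + g' s) s = X.ex stop g s + X.ex stop g' s := by
  induction s using X.induct with
  | h s ih =>
    by_cases hst : stop s
    · rw [ex_stop hst, ex_stop hst, ex_stop hst]
    · rcases hc : X.ch s with _ | c
      · rw [ex_leaf hst hc, ex_leaf hst hc, ex_leaf hst hc, add_zero]
      · obtain ⟨h1, h2⟩ := X.rank_lt s c hc
        rw [ex_node hst hc, ex_node hst hc, ex_node hst hc, ih c.1 h1, ih c.2 h2, ← smul_add]
        congr 1
        abel

theorem ex_map {E' : Type*} [AddCommGroup E'] [Module ℝ E'] (T : E →ₗ[ℝ] E') :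
    X.ex stop (fun s => T (g s)) s = T (X.ex stop g s) := by
  induction s using X.induct with
  | h s ih =>
    by_cases hst : stop s
    · rw [ex_stop hst, ex_stop hst]
    · rcases hc : X.ch s with _ | c
      · rw [ex_leaf hst hc, ex_leaf hst hc, map_zero]
      · obtain ⟨h1, h2⟩ := X.rank_lt s c hc
        rw [ex_node hst hc, ex_node hst hc, ih c.1 h1, ih c.2 h2, map_smul, map_add]

theorem ex_sub : X.ex stop (fun s => g s - g' s) s = X.ex stop g s - X.ex stop g' s := by
  have h := @ex_add _ _ X E _ _ stop (fun s => g s - g' s) g' s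
  simp only [sub_add_cancel] at h
  rw [h, add_sub_cancel_right]

end ex

section real

variable {X} {stop : S → Prop} {s : S}

theorem ex_mono {g g' : S → ℝ} (h : ∀ s', X.rank s' ≤ X.rank s → stop s' → g s' ≤ g' s') :
    X.ex stop g s ≤ X.ex stop g' s := by
  revert h
  induction s using X.induct with
  | h s ih =>
    intro h
    by_cases hst : stop s
    · rw [ex_stop hst, ex_stop hst]
      exact h s le_rfl hst
    · rcases hc : X.ch s with _ | c
      · rw [ex_leaf hst hc, ex_leaf hst hc]
      · obtain ⟨h1, h2⟩ := X.rank_lt s c hc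
        have i1 := ih c.1 h1 fun s' hs' => h s' (hs'.trans h1.le)
        have i2 := ih c.2 h2 fun s' hs' => h s' (hs'.trans h2.le)
        rw [ex_node hst hc, ex_node hst hc, smul_eq_mul, smul_eq_mul]
        linarith

theorem ex_nonneg {g : S → ℝ} (h : ∀ s', 0 ≤ g s') : 0 ≤ X.ex stop g s := by
  induction s using X.induct with
  | h s ih =>
    by_cases hst : stop s
    · rw [ex_stop hst]
      exact h s
    · rcases hc : X.ch s with _ | c
      · rw [ex_leaf hst hc]
      · obtain ⟨h1, h2⟩ := X.rank_lt s c hc
        have i1 := ih c.1 h1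
        have i2 := ih c.2 h2
        rw [ex_node hst hc, smul_eq_mul]
        linarith

theorem ex_const_le {a : ℝ} (ha : 0 ≤ a) : X.ex stop (fun _ => a) s ≤ a := by
  induction s using X.induct with
  | h s ih =>
    by_cases hst : stop s
    · rw [ex_stop hst]
    · rcases hc : X.ch s with _ | c
      · rw [ex_leaf hst hc]
        exact ha
      · obtain ⟨h1, h2⟩ := X.rank_lt s c hc
        have i1 := ih c.1 h1
        have i2 := ih c.2 h2
        rw [ex_node hst hc, smul_eq_mul]
        linarith

theorem norm_ex_le {E : Type*} [NormedAddCommGroup E] [NormedSpace ℝ E] {g : S → E} :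
    ‖X.ex stop g s‖ ≤ X.ex stop (fun s => ‖g s‖) s := by
  induction s using X.induct with
  | h s ih =>
    by_cases hst : stop s
    · rw [ex_stop hst, ex_stop hst]
    · rcases hc : X.ch s with _ | c
      · rw [ex_leaf hst hc, ex_leaf hst hc, norm_zero]
      · obtain ⟨h1, h2⟩ := X.rank_lt s c hc
        have i1 := ih c.1 h1
        have i2 := ih c.2 h2
        rw [ex_node hst hc, ex_node hst hc, norm_smul, smul_eq_mul]
        have i3 := norm_add_le (X.ex stop g c.1) (X.ex stop g c.2)
        have i4 : ‖(2⁻¹ : ℝ)‖ = 2⁻¹ := by norm_num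
        rw [i4]
        linarith

end real

/-! ### the observable -/

section obs

variable [Fintype F]

/-- `a_s(w) = ∑ w(z) U_s(z)`. -/
def aa (U : S → F → ℂ) (s : S) (w : F → ℂ) : ℂ := ∑ z, w z * U s z

/-- The one step recursion of the observable. -/
structure Rec (X : Expl S F) (U : S → F → ℂ) : Prop where
  node : ∀ s c, X.ch s = some c → ∀ z, z ≠ X.face s → U s z = (U c.1 z + U c.2 z) / 2
  leaf : ∀ s, X.ch s = none → ∀ z, z ≠ X.face s → U s z = 0

variable {X} {U : S → F → ℂ}

theorem aa_add (s : S) (w w' : F → ℂ) : aa U s (fun z => w z + w' z) = aa U s w + aa U s w' := by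
  simp only [aa, add_mul, Finset.sum_add_distrib]

theorem aa_smul (s : S) (a : ℂ) (w : F → ℂ) : aa U s (fun z => a * w z) = a * aa U s w := by
  simp only [aa, Finset.mul_sum, mul_assoc]

/-- Markov property: faces which are not explored do not matter. -/
theorem aa_eq_ex (hU : Rec X U) {stop : S → Prop} {w : F → ℂ}
    (hw : ∀ s, ¬ stop s → w (X.face s) = 0) (s : S) :
    X.ex stop (fun s => aa U s w) s = aa U s w := by
  classical
  induction s using X.induct with
  | h s ih =>
    by_cases hst : stop s
    · rw [ex_stop hst]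
    · have hw' := hw s hst
      rcases hc : X.ch s with _ | c
      · rw [ex_leaf hst hc]
        symm
        refine Finset.sum_eq_zero fun z _ => ?_
        by_cases hz : z = X.face s
        · rw [hz, hw', zero_mul]
        · rw [hU.leaf s hc z hz, mul_zero]
      · obtain ⟨h1, h2⟩ := X.rank_lt s c hc
        rw [ex_node hst hc, ih c.1 h1, ih c.2 h2]
        unfold aa
        rw [← Finset.sum_add_distrib, Finset.smul_sum]
        refine Finset.sum_congr rfl fun z _ => ?_
        by_cases hz : z = X.face s
        · rw [hz, hw']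
          simp
        · rw [hU.node s c hc z hz, Complex.real_smul]
          push_cast
          ring

variable (X) in
/-- The exit of the ball of radius `w` round the tip of `t`. -/
def far (pos : F → ℂ) (w : ℝ) (t s : S) : Prop := w < dist (pos (X.face s)) (pos (X.face t))

omit [Fintype F] in
theorem not_far_self {pos : F → ℂ} {w : ℝ} (hw : 0 ≤ w) (t : S) : ¬ X.far pos w t t := by
  unfold far
  rw [dist_self]
  exact not_lt.2 hw

open Classical in
/-- The local error weight of a coarse step. -/
noncomputable def loc (pos : F → ℂ) (w : ℝ) (χ p : F → ℂ) (f z : F) : ℂ :=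
  if dist (pos z) (pos f) ≤ w then (χ z - χ f) * p z else 0

/-- The exact one step identity of the coarse exploration. -/
theorem aa_coarse (hU : Rec X U) (pos : F → ℂ) (w : ℝ) (χ p : F → ℂ) (t : S) :
    aa U t (fun z => χ z * p z) =
      χ (X.face t) * (aa U t p - X.ex (X.far pos w t) (fun s => aa U s p) t) +
      (aa U t (loc pos w χ p (X.face t)) -
        X.ex (X.far pos w t) (fun s => aa U s (loc pos w χ p (X.face t))) t) +
      X.ex (X.far pos w t) (fun s => aa U s (fun z => χ z * p z)) t := by
  classical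
  set x := χ (X.face t) with hx
  set v := loc pos w χ p (X.face t) with hv
  set u : F → ℂ := fun z => (χ z - x) * p z - v z with hu
  have hu0 : ∀ s, ¬ X.far pos w t s → u (X.face s) = 0 := by
    intro s hs
    have h1 : dist (pos (X.face s)) (pos (X.face t)) ≤ w := not_lt.1 hs
    rw [hu, hv]
    simp only [loc, if_pos h1, hx, sub_self]
  have h1 := aa_eq_ex hU hu0 t
  have key : ∀ s, aa U s u = aa U s (fun z => χ z * p z) - x * aa U s p - aa U s v := by
    intro s
    unfold aa
    rw [Finset.mul_sum, ← Finset.sum_sub_distrib, ← Finset.sum_sub_distrib]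
    refine Finset.sum_congr rfl fun z _ => ?_
    rw [hu]
    ring
  simp only [key] at h1
  rw [ex_sub, ex_sub] at h1
  have h2 : X.ex (X.far pos w t) (fun s => x * aa U s p) t =
      x * X.ex (X.far pos w t) (fun s => aa U s p) t :=
    ex_map (X := X) (g := fun s => aa U s p) ((LinearMap.mulLeft ℝ x))
  rw [h2] at h1
  linear_combination -h1

/-- **Main estimate**, with an arbitrary supersolution `B` of the coarse chain. -/
theorem norm_aa_le (hU : Rec X U) {pos : F → ℂ} {w : ℝ} (hw : 0 ≤ w) (χ p : F → ℂ)
    {B : S → ℝ}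
    (hB : ∀ t, ‖χ (X.face t)‖ * (‖aa U t p‖ + X.ex (X.far pos w t) (fun s => ‖aa U s p‖) t) +
      (‖aa U t (loc pos w χ p (X.face t))‖ +
        X.ex (X.far pos w t) (fun s => ‖aa U s (loc pos w χ p (X.face t))‖) t) +
      X.ex (X.far pos w t) B t ≤ B t) (t : S) :
    ‖aa U t (fun z => χ z * p z)‖ ≤ B t := by
  induction t using X.induct with
  | h t ih =>
    refine le_trans ?_ (hB t)
    rw [aa_coarse hU pos w χ p t]
    have h1 : ‖X.ex (X.far pos w t) (fun s => aa U s (fun z => χ z * p z)) t‖ ≤
        X.ex (X.far pos w t) B t := by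
      refine norm_ex_le.trans ?_
      have hn := not_far_self (X := X) (pos := pos) hw t
      rcases hc : X.ch t with _ | c
      · rw [ex_leaf hn hc, ex_leaf hn hc]
      · obtain ⟨h1, h2⟩ := X.rank_lt t c hc
        have i1 : X.ex (X.far pos w t) (fun s => ‖aa U s (fun z => χ z * p z)‖) c.1 ≤
            X.ex (X.far pos w t) B c.1 := ex_mono fun s hs _ => ih s (hs.trans_lt h1)
        have i2 : X.ex (X.far pos w t) (fun s => ‖aa U s (fun z => χ z * p z)‖) c.2 ≤
            X.ex (X.far pos w t) B c.2 := ex_mono fun s hs _ => ih s (hs.trans_lt h2)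
        rw [ex_node hn hc, ex_node hn hc, smul_eq_mul, smul_eq_mul]
        linarith
    refine (norm_add_le _ _).trans (add_le_add ((norm_add_le _ _).trans (add_le_add ?_ ?_)) h1)
    · rw [norm_mul]
      exact mul_le_mul_of_nonneg_left ((norm_sub_le _ _).trans (add_le_add_right norm_ex_le _))
        (norm_nonneg _)
    · exact (norm_sub_le _ _).trans (add_le_add_right norm_ex_le _)

/-- The form with uniform constants: `N` is (an upper bound of) the expected number of coarse
steps. -/
theorem norm_aa_le_mul (hU : Rec X U) {pos : F → ℂ} {w : ℝ} (hw : 0 ≤ w) (χ p : F → ℂ)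
    {η ε b : ℝ} (hη : ∀ s, ‖aa U s p‖ ≤ η) (hε : ∀ s f, ‖aa U s (loc pos w χ p f)‖ ≤ ε)
    (hχ : ∀ f, ‖χ f‖ ≤ b) {N : S → ℝ} (hN : ∀ t, 1 + X.ex (X.far pos w t) N t ≤ N t) (t : S) :
    ‖aa U t (fun z => χ z * p z)‖ ≤ (2 * b * η + 2 * ε) * N t := by
  have hη0 : 0 ≤ η := (norm_nonneg _).trans (hη t)
  have hε0 : 0 ≤ ε := (norm_nonneg _).trans (hε t (X.face t))
  have hb0 : 0 ≤ b := (norm_nonneg _).trans (hχ (X.face t))
  have hK : 0 ≤ 2 * b * η + 2 * ε := by positivity
  refine norm_aa_le (pos := pos) hU hw χ p (B := fun s => (2 * b * η + 2 * ε) * N s) (fun t => ?_) t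
  have h1 : X.ex (X.far pos w t) (fun s => ‖aa U s p‖) t ≤ η :=
    (ex_mono fun s _ _ => hη s).trans (ex_const_le hη0)
  have h2 : X.ex (X.far pos w t) (fun s => ‖aa U s (loc pos w χ p (X.face t))‖) t ≤ ε :=
    (ex_mono fun s _ _ => hε s _).trans (ex_const_le hε0)
  have h3 : X.ex (X.far pos w t) (fun s => (2 * b * η + 2 * ε) * N s) t =
      (2 * b * η + 2 * ε) * X.ex (X.far pos w t) N t :=
    ex_map (X := X) (g := N) (LinearMap.mulLeft ℝ (2 * b * η + 2 * ε))
  have h4 : ‖χ (X.face t)‖ * (‖aa U t p‖ + X.ex (X.far pos w t) (fun s => ‖aa U s p‖) t) ≤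
      b * (η + η) := by
    refine mul_le_mul (hχ _) (add_le_add (hη t) h1) ?_ hb0
    exact add_nonneg (norm_nonneg _) (ex_nonneg fun s => norm_nonneg _)
  have h5 := hε t (X.face t)
  have h6 := mul_le_mul_of_nonneg_left (hN t) hK
  rw [h3]
  linarith

/-- The same with errors which depend on the state: `η s` bounds `|a_s(p)|`, and `B` is a
supersolution for the sum of the errors over the coarse states. -/
theorem norm_aa_le_sum (hU : Rec X U) {pos : F → ℂ} {w : ℝ} (hw : 0 ≤ w) (χ p : F → ℂ)
    {η : S → ℝ} {ε b : ℝ} (hη : ∀ s, ‖aa U s p‖ ≤ η s)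
    (hε : ∀ s f, ‖aa U s (loc pos w χ p f)‖ ≤ ε) (hχ : ∀ f, ‖χ f‖ ≤ b) {B : S → ℝ}
    (hB : ∀ t, b * η t + 2 * ε + X.ex (X.far pos w t) (fun s => b * η s + B s) t ≤ B t) (t : S) :
    ‖aa U t (fun z => χ z * p z)‖ ≤ B t := by
  have hε0 : 0 ≤ ε := (norm_nonneg _).trans (hε t (X.face t))
  have hb0 : 0 ≤ b := (norm_nonneg _).trans (hχ (X.face t))
  refine norm_aa_le (pos := pos) hU hw χ p (B := B) (fun t => ?_) t
  refine le_trans ?_ (hB t)
  have h1 : X.ex (X.far pos w t) (fun s => ‖aa U s p‖) t ≤ X.ex (X.far pos w t) η t :=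
    ex_mono fun s _ _ => hη s
  have h2 : X.ex (X.far pos w t) (fun s => ‖aa U s (loc pos w χ p (X.face t))‖) t ≤ ε :=
    (ex_mono fun s _ _ => hε s _).trans (ex_const_le hε0)
  have h3 : X.ex (X.far pos w t) (fun s => b * η s) t = b * X.ex (X.far pos w t) η t :=
    ex_map (X := X) (g := η) (LinearMap.mulLeft ℝ b)
  have h4 : ‖χ (X.face t)‖ * (‖aa U t p‖ + X.ex (X.far pos w t) (fun s => ‖aa U s p‖) t) ≤
      b * (η t + X.ex (X.far pos w t) η t) := by
    refine mul_le_mul (hχ _) (add_le_add (hη t) h1) ?_ hb0
    exact add_nonneg (norm_nonneg _) (ex_nonneg fun s => norm_nonneg _)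
  have h5 := hε t (X.face t)
  rw [ex_add, h3]
  linarith

end obs

end Expl

end Vale.Agent.P148.R2.H602
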